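import Vale.Agent.P101.Lit.Flip.Main.Core

/-! P101: the two legs of `M_a ⊗ M_b` in `(M_a ⊗ M_b) ⊗ (M_a ⊗ M_b)` and their flips. -/

open scoped Kronecker ComplexOrder
open Matrix

namespace Vale.Agent.P101.Lit.HalfFlip

variable {a b : Type*} [Fintype a] [DecidableEq a] [Fintype b] [DecidableEq b]

/-- Left leg `x ↦ x ⊗ 1`. -/
noncomputable def legL (ι : Type*) [Fintype ι] [DecidableEq ι] :
    CStarMatrix ι ι ℂ →⋆ₐ[ℂ] CStarMatrix (ι × ι) (ι × ι) ℂ where
  toFun x := CStarMatrix.ofMatrix (CStarMatrix.ofMatrix.symm x ⊗ₖ (1 : Matrix ι ι ℂ))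
  map_one' := congrArg CStarMatrix.ofMatrix Matrix.one_kronecker_one
  map_mul' x y := congrArg CStarMatrix.ofMatrix
    (((congrArg _ (one_mul (1 : Matrix ι ι ℂ))).symm).trans (Matrix.mul_kronecker_mul _ _ _ _))
  map_zero' := congrArg CStarMatrix.ofMatrix (Matrix.zero_kronecker _)
  map_add' x y := congrArg CStarMatrix.ofMatrix (Matrix.add_kronecker _ _ _)
  commutes' r := by
    rw [Algebra.algebraMap_eq_smul_one, Algebra.algebraMap_eq_smul_one]
    refine (congrArg CStarMatrix.ofMatrix (Matrix.smul_kronecker r _ _)).trans ?_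
    exact congrArg (fun m => CStarMatrix.ofMatrix (r • m)) Matrix.one_kronecker_one
  map_star' x := congrArg CStarMatrix.ofMatrix
    ((congrArg _ (Matrix.conjTranspose_one (α := ℂ) (n := ι))).symm.trans
      (Matrix.conjTranspose_kronecker _ _).symm)

/-- Right leg `x ↦ 1 ⊗ x`. -/
noncomputable def legR (ι : Type*) [Fintype ι] [DecidableEq ι] :
    CStarMatrix ι ι ℂ →⋆ₐ[ℂ] CStarMatrix (ι × ι) (ι × ι) ℂ where
  toFun x := CStarMatrix.ofMatrix ((1 : Matrix ι ι ℂ) ⊗ₖ CStarMatrix.ofMatrix.symm x)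
  map_one' := congrArg CStarMatrix.ofMatrix Matrix.one_kronecker_one
  map_mul' x y := congrArg CStarMatrix.ofMatrix
    ((congrArg (fun m : Matrix ι ι ℂ => m ⊗ₖ _) (one_mul (1 : Matrix ι ι ℂ))).symm.trans
      (Matrix.mul_kronecker_mul _ _ _ _))
  map_zero' := congrArg CStarMatrix.ofMatrix (Matrix.kronecker_zero _)
  map_add' x y := congrArg CStarMatrix.ofMatrix (Matrix.kronecker_add _ _ _)
  commutes' r := by
    rw [Algebra.algebraMap_eq_smul_one, Algebra.algebraMap_eq_smul_one]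
    refine (congrArg CStarMatrix.ofMatrix (Matrix.kronecker_smul r _ _)).trans ?_
    exact congrArg (fun m => CStarMatrix.ofMatrix (r • m)) Matrix.one_kronecker_one
  map_star' x := congrArg CStarMatrix.ofMatrix
    ((congrArg (fun m : Matrix ι ι ℂ => m ⊗ₖ _)
      (Matrix.conjTranspose_one (α := ℂ) (n := ι))).symm.trans
      (Matrix.conjTranspose_kronecker _ _).symm)

/-- The matrix of an involution of the index set. -/
def invMat {J : Type*} [DecidableEq J] (σ : J → J) : CStarMatrix J J ℂ :=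
  CStarMatrix.ofMatrix (Matrix.of fun i j => if σ i = j then 1 else 0)

section invMat

variable {J : Type*} [Fintype J] [DecidableEq J] {σ τ : J → J}

lemma invMat_mul_apply (X : CStarMatrix J J ℂ) (i j : J) :
    (invMat σ * X) i j = X (σ i) j := by
  simp [invMat, CStarMatrix.mul_apply]

lemma mul_invMat_apply (hσ : Function.Involutive σ) (X : CStarMatrix J J ℂ) (i j : J) :
    (X * invMat σ) i j = X i (σ j) := by
  simp [invMat, CStarMatrix.mul_apply, fun k => (hσ.eq_iff (x := k) (y := j))]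

lemma invMat_mul_invMat : invMat σ * invMat τ = invMat (τ ∘ σ) := by
  ext i j; rw [invMat_mul_apply]; rfl

omit [Fintype J] in
lemma invMat_id : invMat (id : J → J) = 1 := by
  ext i j; simp [invMat, CStarMatrix.one_apply]

omit [Fintype J] in
lemma star_invMat (hσ : Function.Involutive σ) : star (invMat σ) = invMat σ := by
  ext i j
  have : σ j = i ↔ σ i = j := by rw [hσ.eq_iff]; exact eq_comm
  simp [invMat, CStarMatrix.star_apply, this]

end invMat

/-- Exchange of the two `a` factors. -/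
def flipA (i : (a × b) × (a × b)) : (a × b) × (a × b) := ((i.2.1, i.1.2), (i.1.1, i.2.2))

/-- Exchange of the two `b` factors. -/
def flipB (i : (a × b) × (a × b)) : (a × b) × (a × b) := ((i.1.1, i.2.2), (i.2.1, i.1.2))

/-- `M_a ⊗ 1`. -/
def leftEnd (a b : Type*) [Fintype a] [Fintype b] [DecidableEq b] :
    Set (CStarMatrix (a × b) (a × b) ℂ) :=
  {x | ∃ m : Matrix a a ℂ, x = CStarMatrix.ofMatrix (m ⊗ₖ (1 : Matrix b b ℂ))}

/-- `1 ⊗ M_b`. -/
def rightEnd (a b : Type*) [Fintype a] [DecidableEq a] [Fintype b] :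
    Set (CStarMatrix (a × b) (a × b) ℂ) :=
  {x | ∃ m : Matrix b b ℂ, x = CStarMatrix.ofMatrix ((1 : Matrix a a ℂ) ⊗ₖ m)}

lemma legL_apply {ι : Type*} [Fintype ι] [DecidableEq ι] (x : CStarMatrix ι ι ℂ)
    (i j : ι × ι) : legL ι x i j = x i.1 j.1 * (1 : Matrix ι ι ℂ) i.2 j.2 := rfl

lemma legR_apply {ι : Type*} [Fintype ι] [DecidableEq ι] (x : CStarMatrix ι ι ℂ)
    (i j : ι × ι) : legR ι x i j = (1 : Matrix ι ι ℂ) i.1 j.1 * x i.2 j.2 := rfl

theorem legs : Legs (legL (a × b)) (legR (a × b)) (invMat flipA) (invMat flipB)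
    (leftEnd a b) (rightEnd a b) := by
  have hA : Function.Involutive (flipA : (a × b) × (a × b) → _) := fun _ => rfl
  have hB : Function.Involutive (flipB : (a × b) × (a × b) → _) := fun _ => rfl
  have hC : Function.Involutive (flipB ∘ flipA : (a × b) × (a × b) → _) := fun _ => rfl
  refine ⟨star_invMat hA, ?_, star_invMat hB, ?_, fun x y => ?_, fun x => ?_, ?_,
    ?_, ?_, ?_, ?_⟩
  · rw [invMat_mul_invMat, hA.comp_self, invMat_id]
  · rw [invMat_mul_invMat, hB.comp_self, invMat_id]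
  · have h1 : ∀ u v : Matrix (a × b) (a × b) ℂ, (u ⊗ₖ 1) * (1 ⊗ₖ v) = (1 ⊗ₖ v) * (u ⊗ₖ 1) := by
      intro u v; rw [← Matrix.mul_kronecker_mul, ← Matrix.mul_kronecker_mul]; simp
    exact congrArg CStarMatrix.ofMatrix (h1 _ _)
  · ext i j
    rw [invMat_mul_invMat, invMat_mul_apply, mul_invMat_apply hC, legL_apply, legR_apply]
    simp [flipA, flipB, Matrix.one_apply, mul_comm]
  · exact (invMat_mul_invMat (σ := flipA) (τ := flipB)).trans
      (invMat_mul_invMat (σ := flipB) (τ := flipA)).symm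
  · rintro _ ⟨m, rfl⟩
    ext i j
    rw [invMat_mul_apply, mul_invMat_apply hA, legL_apply, legR_apply]
    simp only [CStarMatrix.ofMatrix_apply, kroneckerMap_apply, Matrix.one_apply, flipA,
      Prod.ext_iff]
    split_ifs <;> simp_all
  · rintro _ ⟨m, rfl⟩
    constructor <;> ext i j <;>
      rw [invMat_mul_apply, mul_invMat_apply hA] <;>
      simp only [legL_apply, legR_apply, CStarMatrix.ofMatrix_apply, kroneckerMap_apply,
        Matrix.one_apply, flipA, Prod.ext_iff] <;>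
      split_ifs <;> simp_all
  · rintro _ ⟨m, rfl⟩
    ext i j
    rw [invMat_mul_apply, mul_invMat_apply hB, legL_apply, legR_apply]
    simp only [CStarMatrix.ofMatrix_apply, kroneckerMap_apply, Matrix.one_apply, flipB,
      Prod.ext_iff]
    split_ifs <;> simp_all
  · rintro _ ⟨m, rfl⟩
    constructor <;> ext i j <;>
      rw [invMat_mul_apply, mul_invMat_apply hB] <;>
      simp only [legL_apply, legR_apply, CStarMatrix.ofMatrix_apply, kroneckerMap_apply,
        Matrix.one_apply, flipB, Prod.ext_iff] <;>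
      split_ifs <;> simp_all

/-- The approximate half flip for `I(a,b)`: a continuous unitary on the square satisfying the
boundary conditions of `I(a,b) ⊗ I(a,b)`. -/
theorem exists_halfFlip {V : ℝ → CStarMatrix (a × b) (a × b) ℂ} (hV : ∀ x, V x ∈ unitary _)
    (hV0 : V 0 = 1) (hVc : Continuous V) :
    ∃ W : C(ℝ × ℝ, CStarMatrix ((a × b) × (a × b)) ((a × b) × (a × b)) ℂ),
      (∀ p, W p ∈ unitary _) ∧
      (∀ r, ∀ y ∈ rightEnd a b, Commute (W (0, r)) (legL _ y)) ∧
      (∀ r ≤ 1, ∀ y ∈ leftEnd a b, Commute (W (1, r)) (legL _ y)) ∧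
      (∀ s, ∀ y ∈ rightEnd a b, Commute (W (s, 0)) (legR _ y)) ∧
      (∀ s ≤ 1, ∀ y ∈ leftEnd a b, Commute (W (s, 1)) (legR _ y)) ∧
      ∀ (F : ℝ → CStarMatrix (a × b) (a × b) ℂ) (ε : ℝ), F 0 ∈ leftEnd a b →
        F 1 ∈ rightEnd a b →
        (∀ x ∈ Set.Icc (0 : ℝ) 1, ‖F x - V x * F 0 * star (V x)‖ ≤ ε) →
        ∀ s ∈ Set.Icc (0 : ℝ) 1, ∀ r ∈ Set.Icc (0 : ℝ) 1,
          ‖W (s, r) * legL _ (F s) * star (W (s, r)) - legR _ (F r)‖ ≤ 4 * ε := by
  refine ⟨⟨_, continuous_halfFlip (E := legL (a × b)) (G := legR (a × b))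
    (S := invMat flipA) (S' := invMat flipB) hVc⟩, fun p => halfFlip_mem legs hV _ _,
    fun r y hy => commute_zero_left legs hV hV0 hy r,
    fun r hr y hy => commute_one_left legs hV hy hr,
    fun s y hy => commute_zero_right legs hV0 hy s,
    fun s hs y hy => commute_one_right legs hV hy hs,
    fun F ε h0 h1 h s hs r hr => ?_⟩
  exact norm_halfFlip_conj legs hV h0 h1 (h s hs) (h r hr) (h 1 (by simp))

end Vale.Agent.P101.Lit.HalfFlip
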