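import Mathlib

/-! P101: explicit approximate half flip. Abstract form: `E`, `G` are the two legs `M → A`,
`S`, `S'` the flips of the first resp. second tensor factor of the legs, `L`, `R` the two
endpoint algebras of the dimension drop algebra. -/

namespace Vale.Agent.P101.Lit.HalfFlip

open Complex

section rot

variable {A : Type*} [CStarAlgebra A]

/-- `rot S x = exp (iπ x (1 - S) / 2)` for a symmetry `S`. -/
noncomputable def rot (S : A) (x : ℝ) : A :=
  ((1 + exp (x * Real.pi * I)) / 2) • (1 : A) + ((1 - exp (x * Real.pi * I)) / 2) • S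

lemma rot_zero (S : A) : rot S 0 = 1 := by simp [rot]

lemma rot_one (S : A) : rot S 1 = S := by
  have : exp (((1 : ℝ) : ℂ) * Real.pi * I) = -1 := by simp [exp_pi_mul_I]
  rw [rot, this]; norm_num

lemma rot_mul (S : A) (h : S * S = 1) (x y : ℝ) : rot S x * rot S y = rot S (x + y) := by
  have he : exp (((x + y : ℝ) : ℂ) * Real.pi * I)
      = exp (x * Real.pi * I) * exp (y * Real.pi * I) := by
    rw [← exp_add]; push_cast; ring_nf
  simp only [rot, he, add_mul, mul_add, smul_mul_smul_comm, one_mul, mul_one, h]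
  module

lemma rot_neg_one (S : A) : rot S (-1) = S := by
  have : exp (((-1 : ℝ) : ℂ) * Real.pi * I) = -1 := by
    simp [exp_neg, exp_pi_mul_I]
  rw [rot, this]; norm_num

lemma star_rot (S : A) (h : star S = S) (x : ℝ) : star (rot S x) = rot S (-x) := by
  have he : star (exp (x * Real.pi * I)) = exp (((-x : ℝ) : ℂ) * Real.pi * I) := by
    rw [show star (exp (x * Real.pi * I)) = (starRingEnd ℂ) (exp (x * Real.pi * I)) from rfl,
      ← exp_conj]
    simp
  simp only [rot, star_add, star_smul, star_one, h, ← he]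
  simp

lemma rot_mem (S : A) (h : star S = S) (h' : S * S = 1) (x : ℝ) :
    rot S x ∈ unitary A := by
  rw [Unitary.mem_iff, star_rot S h, rot_mul S h', rot_mul S h']
  simp [rot_zero]

lemma commute_rot {S a : A} (h : Commute S a) (x : ℝ) : Commute (rot S x) a :=
  ((Commute.one_left a).smul_left _).add_left (h.smul_left _)

lemma continuous_rot (S : A) : Continuous (rot S) := by
  unfold rot; fun_prop

/-- Conjugation by a unitary. -/
lemma norm_conj_sub {U : A} (hU : U ∈ unitary A) (x y : A) :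
    ‖U * x * star U - U * y * star U‖ = ‖x - y‖ := by
  rw [← sub_mul, ← mul_sub, CStarRing.norm_mul_mem_unitary _ (Unitary.star_mem hU),
    CStarRing.norm_mem_unitary_mul _ hU]

lemma conj_of_commute {U : A} (hU : U ∈ unitary A) {x : A} (h : Commute U x) :
    U * x * star U = x := by
  rw [h.eq, mul_assoc, Unitary.mul_star_self_of_mem hU, mul_one]

/-- If `U x U* ≈ y` up to `a` and `W y W* ≈ z` up to `b`, then `(W U) x (W U)* ≈ z`. -/
lemma conj_step {U W x y z : A} {a b : ℝ} (hW : W ∈ unitary A)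
    (h₁ : ‖U * x * star U - y‖ ≤ a) (h₂ : ‖W * y * star W - z‖ ≤ b) :
    ‖W * U * x * star (W * U) - z‖ ≤ a + b := by
  have key : W * U * x * star (W * U) - z
      = (W * (U * x * star U) * star W - W * y * star W) + (W * y * star W - z) := by
    simp only [star_mul, mul_assoc]; abel
  rw [key]
  exact (norm_add_le _ _).trans (add_le_add ((norm_conj_sub hW _ _).le.trans h₁) h₂)

end rot

/-- The algebraic relations between the two legs and the two flips. -/
structure Legs {M A : Type*} [CStarAlgebra M] [CStarAlgebra A]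
    (E G : M →⋆ₐ[ℂ] A) (S S' : A) (L R : Set M) : Prop where
  star_S : star S = S
  sq_S : S * S = 1
  star_S' : star S' = S'
  sq_S' : S' * S' = 1
  comm : ∀ x y, Commute (E x) (G y)
  flip : ∀ x, S * S' * E x = G x * (S * S')
  commS : Commute S S'
  S_L : ∀ a ∈ L, S * E a = G a * S
  S_R : ∀ b ∈ R, Commute S (E b) ∧ Commute S (G b)
  S'_R : ∀ b ∈ R, S' * E b = G b * S'
  S'_L : ∀ a ∈ L, Commute S' (E a) ∧ Commute S' (G a)

/-- First parameter function. -/
noncomputable def mu (r : ℝ) : ℝ := min (2 * r) 1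

/-- Second parameter function. -/
noncomputable def nu (s r : ℝ) : ℝ := max (2 * r - 1) s

variable {M A : Type*} [CStarAlgebra M] [CStarAlgebra A]

/-- The half flip unitary on the square. -/
noncomputable def halfFlip (E G : M →⋆ₐ[ℂ] A) (S S' : A) (V : ℝ → M) (s r : ℝ) : A :=
  G (V r) * (S * (rot S' (mu r) * ((E (star (V 1)) * (rot S (nu s r) * E (V 1))) *
    (rot S' (-(mu r * (1 - s))) * E (star (V s))))))

variable {E G : M →⋆ₐ[ℂ] A} {S S' : A} {L R : Set M} {V : ℝ → M}

lemma map_mem (φ : M →⋆ₐ[ℂ] A) {x : M} (h : x ∈ unitary M) : φ x ∈ unitary A := by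
  rw [Unitary.mem_iff, ← map_star, ← map_mul, ← map_mul, (Unitary.mem_iff.1 h).1,
    (Unitary.mem_iff.1 h).2]
  simp

lemma halfFlip_mem (h : Legs E G S S' L R) (hV : ∀ x, V x ∈ unitary M) (s r : ℝ) :
    halfFlip E G S S' V s r ∈ unitary A := by
  have hr := rot_mem S h.star_S h.sq_S
  have hr' := rot_mem S' h.star_S' h.sq_S'
  have hS : S ∈ unitary A := rot_one S ▸ hr 1
  exact mul_mem (map_mem G (hV r)) (mul_mem hS (mul_mem (hr' _) (mul_mem (mul_mem
    (map_mem E (Unitary.star_mem (hV 1))) (mul_mem (hr _) (map_mem E (hV 1))))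
    (mul_mem (hr' _) (map_mem E (Unitary.star_mem (hV s)))))))

lemma continuous_halfFlip (hV : Continuous V) :
    Continuous fun p : ℝ × ℝ => halfFlip E G S S' V p.1 p.2 := by
  have hc : ∀ φ : M →⋆ₐ[ℂ] A, Continuous φ := fun φ =>
    AddMonoidHomClass.continuous_of_bound φ 1 fun x => by
      simpa using NonUnitalStarAlgHom.norm_apply_le φ x
  have hE := hc E
  have hG := hc G
  have h1 := continuous_rot S
  have h2 := continuous_rot S'
  unfold halfFlip mu nu
  fun_prop

variable (hL : Legs E G S S' L R) (hV : ∀ x, V x ∈ unitary M) (hV0 : V 0 = 1)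

include hL in
lemma commute_middle {b : M} (hb : b ∈ R) (x : ℝ) (v w : M) :
    Commute (E v * (rot S x * E w)) (G b) :=
  (hL.comm v b).mul_left ((commute_rot (hL.S_R b hb).2 x).mul_left (hL.comm w b))

include hL hV hV0 in
lemma commute_zero_left {b : M} (hb : b ∈ R) (r : ℝ) :
    Commute (halfFlip E G S S' V 0 r) (E b) := by
  refine ((hL.comm b (V r)).symm).mul_left ((hL.S_R b hb).1.mul_left ?_)
  rw [hV0, star_one, map_one, mul_one, sub_zero, mul_one]
  rcases le_total r (1 / 2) with hr | hr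
  · have : nu 0 r = 0 := max_eq_right (by linarith)
    rw [this, rot_zero, one_mul, ← map_mul, Unitary.star_mul_self_of_mem (hV 1), map_one,
      one_mul, rot_mul S' hL.sq_S', add_neg_cancel, rot_zero]
    exact Commute.one_left _
  · have : mu r = 1 := min_eq_right (by linarith)
    rw [this, rot_one, rot_neg_one]
    set X := E (star (V 1)) * (rot S (nu 0 r) * E (V 1))
    have hX : Commute X (G b) := commute_middle hL hb _ _ _
    have h1 : S' * E b = G b * S' := hL.S'_R b hb
    have h2 : E b * S' = S' * G b := by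
      have := congrArg (fun z => S' * z * S') h1
      simpa [mul_assoc, hL.sq_S', ← mul_assoc S' S'] using this
    show S' * (X * S') * E b = E b * (S' * (X * S'))
    rw [mul_assoc, mul_assoc, h1, ← mul_assoc X, hX.eq, ← mul_assoc (E b), h2]
    simp [mul_assoc]

include hL hV in
lemma commute_one_left {a : M} (ha : a ∈ L) {r : ℝ} (hr : r ≤ 1) :
    Commute (halfFlip E G S S' V 1 r) (E a) := by
  refine ((hL.comm a (V r)).symm).mul_left ?_
  have h1 : nu 1 r = 1 := max_eq_right (by linarith)
  have h2 : E (V 1) * E (star (V 1)) = 1 := by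
    rw [← map_mul, Unitary.mul_star_self_of_mem (hV 1), map_one]
  rw [h1, rot_one, sub_self, mul_zero, neg_zero, rot_zero, one_mul, mul_assoc, mul_assoc S, h2,
    mul_one]
  have h3 : S * E a = G a * S := hL.S_L a ha
  have h4 : E a * S = S * G a := by
    have := congrArg (fun z => S * z * S) h3
    simpa [mul_assoc, hL.sq_S, ← mul_assoc S S] using this
  set Y := rot S' (mu r) * E (star (V 1))
  have hY : Commute Y (G a) :=
    (commute_rot (hL.S'_L a ha).2 _).mul_left (hL.comm _ a)
  show S * (rot S' (mu r) * (E (star (V 1)) * S)) * E a =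
    E a * (S * (rot S' (mu r) * (E (star (V 1)) * S)))
  rw [← mul_assoc (rot S' _), mul_assoc, mul_assoc, h3, ← mul_assoc Y, hY.eq,
    ← mul_assoc (E a), h4]
  simp [Y, mul_assoc]

include hL hV0 in
lemma commute_zero_right {b : M} (hb : b ∈ R) (s : ℝ) :
    Commute (halfFlip E G S S' V s 0) (G b) := by
  have h : mu 0 = 0 := by simp [mu]
  unfold halfFlip
  rw [hV0, map_one, one_mul, h, zero_mul, neg_zero, rot_zero, one_mul, one_mul]
  exact (hL.S_R b hb).2.mul_left ((commute_middle hL hb _ _ _).mul_left (hL.comm _ b))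

include hL hV in
lemma commute_one_right {a : M} (ha : a ∈ L) {s : ℝ} (hs : s ≤ 1) :
    Commute (halfFlip E G S S' V s 1) (G a) := by
  have h : mu 1 = 1 := by norm_num [mu]
  have h' : nu s 1 = 1 := max_eq_left (by linarith) |>.trans (by norm_num)
  unfold halfFlip
  rw [h, h', rot_one, rot_one]
  have key : ∀ Z, G (V 1) * (S * (S' * ((E (star (V 1)) * (S * E (V 1))) * Z)))
      = S' * (E (V 1) * Z) := by
    intro Z
    have h2 : E (V 1) * E (star (V 1)) = 1 := by
      rw [← map_mul, Unitary.mul_star_self_of_mem (hV 1), map_one]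
    calc G (V 1) * (S * (S' * ((E (star (V 1)) * (S * E (V 1))) * Z)))
        = G (V 1) * (S * S') * (E (star (V 1)) * (S * (E (V 1) * Z))) := by
          simp only [mul_assoc]
      _ = S * S' * (E (V 1) * E (star (V 1))) * (S * (E (V 1) * Z)) := by
          rw [← hL.flip]; simp only [mul_assoc]
      _ = S' * (S * S) * (E (V 1) * Z) := by
          rw [h2, mul_one, hL.commS.eq]; simp only [mul_assoc]
      _ = _ := by rw [hL.sq_S, mul_one]
  rw [key]
  exact (hL.S'_L a ha).2.mul_left ((hL.comm _ a).mul_left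
    ((commute_rot (hL.S'_L a ha).2 _).mul_left (hL.comm _ a)))

include hL hV in
/-- The half flip moves `F s` in the first leg near `F r` in the second one. -/
lemma norm_halfFlip_conj {F : ℝ → M} (hF0 : F 0 ∈ L) (hF1 : F 1 ∈ R) {ε : ℝ} {s r : ℝ}
    (hs : ‖F s - V s * F 0 * star (V s)‖ ≤ ε) (hr : ‖F r - V r * F 0 * star (V r)‖ ≤ ε)
    (h1 : ‖F 1 - V 1 * F 0 * star (V 1)‖ ≤ ε) :
    ‖halfFlip E G S S' V s r * E (F s) * star (halfFlip E G S S' V s r) - G (F r)‖
      ≤ 4 * ε := by
  have hR := rot_mem S hL.star_S hL.sq_S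
  have hR' := rot_mem S' hL.star_S' hL.sq_S'
  have hS : S ∈ unitary A := rot_one S ▸ hR 1
  have hu : ∀ {x}, x ∈ unitary M → ∀ y z : M, ‖x * y * star x - z‖ = ‖y - star x * z * x‖ := by
    intro x hx y z
    rw [← norm_conj_sub hx y (star x * z * x)]
    congr 2
    simp [mul_assoc, Unitary.mul_star_self_of_mem hx, ← mul_assoc x (star x)]
  have hE : ∀ y z : M, ‖E y - E z‖ ≤ ‖y - z‖ := fun y z => by
    rw [← map_sub]; exact NonUnitalStarAlgHom.norm_apply_le E _
  have hG : ∀ y z : M, ‖G y - G z‖ ≤ ‖y - z‖ := fun y z => by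
    rw [← map_sub]; exact NonUnitalStarAlgHom.norm_apply_le G _
  have e1 : ‖E (star (V s)) * E (F s) * star (E (star (V s))) - E (F 0)‖ ≤ ε := by
    rw [← map_star, ← map_mul, ← map_mul, star_star]
    refine (hE _ _).trans ?_
    have := hu (Unitary.star_mem (hV s)) (F s) (F 0)
    rw [star_star] at this
    rw [this]; exact hs
  have e2 : ∀ x, ‖rot S' x * E (F 0) * star (rot S' x) - E (F 0)‖ ≤ 0 := fun x => by
    rw [conj_of_commute (hR' x) (commute_rot (hL.S'_L _ hF0).1 x), sub_self, norm_zero]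
  have e3 : ‖E (V 1) * E (F 0) * star (E (V 1)) - E (F 1)‖ ≤ ε := by
    rw [← map_star, ← map_mul, ← map_mul]
    exact (hE _ _).trans ((norm_sub_rev _ _).trans_le h1)
  have e4 : ∀ x, ‖rot S x * E (F 1) * star (rot S x) - E (F 1)‖ ≤ 0 := fun x => by
    rw [conj_of_commute (hR x) (commute_rot (hL.S_R _ hF1).1 x), sub_self, norm_zero]
  have e5 : ‖E (star (V 1)) * E (F 1) * star (E (star (V 1))) - E (F 0)‖ ≤ ε := by
    rw [← map_star, ← map_mul, ← map_mul, star_star]
    refine (hE _ _).trans ?_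
    have := hu (Unitary.star_mem (hV 1)) (F 1) (F 0)
    rw [star_star] at this
    rw [this]; exact h1
  have e6 : ‖S * E (F 0) * star S - G (F 0)‖ ≤ 0 := by
    rw [hL.S_L _ hF0, hL.star_S, mul_assoc, hL.sq_S, mul_one, sub_self, norm_zero]
  have e7 : ‖G (V r) * G (F 0) * star (G (V r)) - G (F r)‖ ≤ ε := by
    rw [← map_star, ← map_mul, ← map_mul]
    exact (hG _ _).trans ((norm_sub_rev _ _).trans_le hr)
  have hEV : ∀ x, E (V x) ∈ unitary A := fun x => map_mem E (hV x)
  have hEV' : ∀ x, E (star (V x)) ∈ unitary A := fun x => map_mem E (Unitary.star_mem (hV x))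
  have m1 := conj_step (hR' (-(mu r * (1 - s)))) e1 (e2 _)
  have m2 := conj_step (hR (nu s r)) e3 (e4 _)
  have m3 := conj_step (hEV' 1) m2 e5
  have m4 := conj_step (mul_mem (hEV' 1) (mul_mem (hR (nu s r)) (hEV 1))) m1 m3
  have m5 := conj_step (hR' (mu r)) m4 (e2 _)
  have m6 := conj_step hS m5 e6
  have m7 := conj_step (map_mem G (hV r)) m6 e7
  refine m7.trans_eq ?_
  ring

end Vale.Agent.P101.Lit.HalfFlip
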